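import Vale.Agent.P129.MathlibUsed
import Vale.Agent.P129.Bdl.B1

open MeasureTheory Set

namespace Vale.Agent.Results.P129.Combined

universe u

/-- The uniformity number of the meagre ideal: the least cardinality of a nonmeagre
set of real numbers. -/
noncomputable def nonMeagre : Cardinal.{0} :=
  sInf {κ : Cardinal.{0} | ∃ S : Set ℝ, ¬ IsMeagre S ∧ Cardinal.mk S = κ}

/-- There is a closed subspace with a separable infinite-dimensional quotient. -/
def HasSeparableQuotient (𝕜 : Type) [RCLike 𝕜] (X : Type u) [NormedAddCommGroup X]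
    [NormedSpace 𝕜 X] : Prop :=
  ∃ M : Submodule 𝕜 X, IsClosed (M : Set X) ∧ TopologicalSpace.SeparableSpace (X ⧸ M) ∧
    ¬ FiniteDimensional 𝕜 (X ⧸ M)

/-- Every infinite-dimensional barrelled normed space has Hamel dimension at least non(M). -/
def BarrelledLowerBound : Prop :=
  ∀ (𝕜 : Type) [RCLike 𝕜] (E : Type u) [NormedAddCommGroup E] [NormedSpace 𝕜 E],
    ¬ FiniteDimensional 𝕜 E → BarrelledSpace 𝕜 E →
      Cardinal.lift.{u} nonMeagre ≤ Module.rank 𝕜 E

/-- Every infinite-dimensional separable Banach space has a dense barrelled subspace of Hamel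
dimension exactly non(M). -/
def BarrelledAttained : Prop :=
  ∀ (𝕜 : Type) [RCLike 𝕜] (X : Type) [NormedAddCommGroup X] [NormedSpace 𝕜 X]
    [CompleteSpace X] [TopologicalSpace.SeparableSpace X], ¬ FiniteDimensional 𝕜 X →
      ∃ E : Submodule 𝕜 X, Dense (E : Set X) ∧ BarrelledSpace 𝕜 E ∧
        Module.rank 𝕜 E = nonMeagre

/-- Banach spaces generated by fewer than non(M) weakly compact sets have separable
infinite-dimensional quotients. -/
def GeneratedCase : Prop :=
  ∀ (𝕜 : Type) [RCLike 𝕜] (X : Type u) [NormedAddCommGroup X] [NormedSpace 𝕜 X]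
    [CompleteSpace X] (𝒦 : Set (Set X)), (∀ K ∈ 𝒦, IsCompact (toWeakSpace 𝕜 X '' K)) →
      Dense (Submodule.span 𝕜 (⋃₀ 𝒦) : Set X) → Cardinal.mk 𝒦 < Cardinal.lift.{u} nonMeagre →
        ¬ FiniteDimensional 𝕜 X → HasSeparableQuotient 𝕜 X

/-- Every infinite-dimensional Banach space has a separable infinite-dimensional quotient. -/
def FullAnswer : Prop :=
  ∀ (𝕜 : Type) [RCLike 𝕜] (X : Type u) [NormedAddCommGroup X] [NormedSpace 𝕜 X]
    [CompleteSpace X], ¬ FiniteDimensional 𝕜 X → HasSeparableQuotient 𝕜 X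

/-- Every map assigning to each finite set of reals a Lebesgue null set has an infinite free
set. -/
def InfiniteFreeSets : Prop :=
  ∀ F : Finset ℝ → Set ℝ, (∀ s, volume (F s) = 0) →
    ∃ A : Set ℝ, A.Infinite ∧ ∀ s : Finset ℝ, (s : Set ℝ) ⊆ A → ∀ a ∈ A, a ∉ s → a ∉ F s

/-- Lebesgue measure on the real line extends to a countably additive measure which is defined
on all subsets of the real line. -/
def LebesgueExtends : Prop :=
  ∃ ν : @Measure ℝ ⊤, ∀ s : Set ℝ, MeasurableSet s → ν s = volume s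

theorem isMeagre_of_countable {S : Set ℝ} (hS : S.Countable) : IsMeagre S := by
  have h : S = ⋃ x ∈ S, {x} := by simp
  rw [h]
  refine isMeagre_biUnion hS fun x _ => ?_
  have hx : IsNowhereDense ({x} : Set ℝ) := by
    show interior (closure {x}) = ∅
    rw [closure_singleton, interior_singleton]
  exact hx.isMeagre

theorem nonMeagre_mem : ∃ S : Set ℝ, ¬ IsMeagre S ∧ Cardinal.mk S = nonMeagre := by
  have : nonMeagre ∈ {κ : Cardinal.{0} | ∃ S : Set ℝ, ¬ IsMeagre S ∧ Cardinal.mk S = κ} := by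
    refine csInf_mem ⟨_, Set.univ, ?_, rfl⟩
    exact not_isMeagre_of_isOpen isOpen_univ univ_nonempty
  exact this

theorem aleph0_lt_nonMeagre : Cardinal.aleph0 < nonMeagre := by
  obtain ⟨S, hS, hSc⟩ := nonMeagre_mem
  rw [← hSc]
  by_contra hle
  exact hS (isMeagre_of_countable (Cardinal.le_aleph0_iff_set_countable.1 (not_lt.1 hle)))

theorem isMeagre_range_of_lt {ι : Type u} (h : Cardinal.mk ι < Cardinal.lift.{u} nonMeagre)
    (F : ι → ℝ) : IsMeagre (Set.range F) := by
  by_contra hF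
  have h3 : nonMeagre ≤ Cardinal.mk (Set.range F) := csInf_le' ⟨_, hF, rfl⟩
  have h4 : Cardinal.lift.{u} (Cardinal.mk (Set.range F)) ≤
      Cardinal.lift.{0} (Cardinal.mk ι) := Cardinal.mk_range_le_lift
  rw [Cardinal.lift_id'] at h4
  exact absurd h (not_lt.2 ((Cardinal.lift_le.2 h3).trans h4))

theorem barrelledLowerBound : BarrelledLowerBound.{u} := by
  intro 𝕜 _ E _ _ hinf hb
  by_contra hlt
  rw [not_le] at hlt
  let b := Module.Basis.ofVectorSpace 𝕜 E
  have hcard : Cardinal.mk (Module.Basis.ofVectorSpaceIndex 𝕜 E) = Module.rank 𝕜 E :=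
    b.mk_eq_rank''
  have hinfι : Infinite (Module.Basis.ofVectorSpaceIndex 𝕜 E) := by
    by_contra hfin
    rw [not_infinite_iff_finite] at hfin
    exact hinf (Module.Finite.of_basis b)
  refine Vale.Agent.P129.not_barrelled_of_span hinf
    (isMeagre_range_of_lt (by rw [hcard]; exact hlt)) (fun i => b i) b.span_eq hb

theorem barrelledAttained : BarrelledAttained := by
  intro 𝕜 _ X _ _ _ _ hinf
  obtain ⟨T, hT, hTc⟩ := nonMeagre_mem
  let _ : NormedSpace ℝ X := NormedSpace.restrictScalars ℝ 𝕜 X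
  obtain ⟨e, he⟩ := Vale.Agent.P129.exists_digit_map X
  obtain ⟨h1, h2⟩ := Vale.Agent.P129.barrelled_span_of_digit_map (𝕜 := 𝕜) e he T hT
  refine ⟨_, h1, h2, le_antisymm ?_ ?_⟩
  · refine (rank_span_le _).trans ?_
    rw [← hTc]
    exact Cardinal.mk_image_le
  · have hE : ¬ FiniteDimensional 𝕜 (Submodule.span 𝕜 (e '' T)) := by
      intro hfin
      have hcl : IsClosed (Submodule.span 𝕜 (e '' T) : Set X) :=
        Submodule.closed_of_finiteDimensional _
      have htop : (Submodule.span 𝕜 (e '' T) : Set X) = Set.univ := by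
        rw [← hcl.closure_eq, h1.closure_eq]
      have htop' : Submodule.span 𝕜 (e '' T) = ⊤ := by
        rw [← SetLike.coe_set_eq, htop, Submodule.top_coe]
      rw [htop'] at hfin
      exact hinf (Module.Finite.equiv (Submodule.topEquiv : (⊤ : Submodule 𝕜 X) ≃ₗ[𝕜] X))
    have := barrelledLowerBound.{0} 𝕜 _ hE h2
    rwa [Cardinal.lift_id] at this

theorem generatedCase : GeneratedCase.{u} := by
  intro 𝕜 _ X _ _ _ 𝒦 hcompact hspan hcard hinf
  have h0 : Cardinal.aleph0 < Cardinal.lift.{u} nonMeagre :=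
    Cardinal.aleph0_lt_lift.2 aleph0_lt_nonMeagre
  have h1 : Cardinal.mk (𝒦 ⊕ ℕ) < Cardinal.lift.{u} nonMeagre := by
    rw [Cardinal.mk_sum]
    refine Cardinal.add_lt_of_lt h0.le ?_ ?_
    · simpa using hcard
    · simpa using h0
  refine Vale.Agent.P129.hasSepQuot_of_weaklyCompact hinf (ι := 𝒦 ⊕ ℕ)
    (isMeagre_range_of_lt h1)
    (Sum.elim (fun K => (K : Set X)) (fun _ => ∅)) ?_ ?_
  · rintro (K | n)
    · exact hcompact K K.2
    · simp
  · have e1 : (⋃ i, Sum.elim (fun K : 𝒦 => (K : Set X)) (fun _ : ℕ => ∅) i) = ⋃₀ 𝒦 := by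
      rw [Set.iUnion_sum]
      simp [Set.sUnion_eq_iUnion]
    rw [e1]
    exact hspan

theorem infiniteFreeSets_of_extends (h : LebesgueExtends) : InfiniteFreeSets := by
  obtain ⟨ν, hν⟩ := h
  intro F hF
  let μ : @Measure ℝ ⊤ := @Measure.restrict ℝ ⊤ ν (Icc 0 1)
  have hμ : ∀ s : Set ℝ, μ s = ν (s ∩ Icc 0 1) := fun s =>
    @Measure.restrict_apply ℝ ⊤ ν (Icc 0 1) s MeasurableSpace.measurableSet_top
  have h1 : μ univ = 1 := by
    rw [hμ, univ_inter, hν _ measurableSet_Icc, Real.volume_Icc]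
    simp
  obtain ⟨g, hg1, hg2⟩ := Vale.Agent.P129.exists_infinite_free μ (by rw [h1]; simp)
    (by rw [h1]; simp) (fun s hs => by
      rw [hμ]
      refine nonpos_iff_eq_zero.1 ?_
      calc ν (s ∩ Icc 0 1) ≤ ν (toMeasurable volume s) :=
            measure_mono (inter_subset_left.trans (subset_toMeasurable volume s))
        _ = volume (toMeasurable volume s) := hν _ (measurableSet_toMeasurable _ _)
        _ = 0 := by rw [measure_toMeasurable, hs]) F hF
  refine ⟨range g, infinite_range_of_injective hg1, ?_⟩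
  rintro s hs _ ⟨j, rfl⟩ hj
  obtain ⟨S, hS⟩ : ∃ S : Finset ℕ, S.image g = s := by
    classical
    refine ⟨s.preimage g hg1.injOn, ?_⟩
    rw [Finset.image_preimage]
    exact Finset.filter_true_of_mem fun x hx => hs hx
  rw [← hS]
  refine hg2 S j fun hj' => hj ?_
  rw [← hS]
  exact Finset.mem_image_of_mem g hj'

theorem fullAnswer_of_free (h : InfiniteFreeSets) : FullAnswer.{u} := by
  classical
  intro 𝕜 _ X _ _ _ hinf
  refine Vale.Agent.P129.exists_separable_quotient_of_free (fun F hF => ?_) hinf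
  obtain ⟨A, hA, hfree⟩ := h F hF
  have g : ℕ ↪ A := hA.natEmbedding
  refine ⟨fun n => (g n : ℝ), Subtype.val_injective.comp g.injective, fun S j hj => ?_⟩
  refine hfree _ ?_ _ (g j).2 ?_
  · intro x hx
    obtain ⟨i, -, rfl⟩ := Finset.mem_image.1 (Finset.mem_coe.1 hx)
    exact (g i).2
  · intro hx
    obtain ⟨i, hi, hij⟩ := Finset.mem_image.1 hx
    exact hj (g.injective (Subtype.ext hij) ▸ hi)

/-- The results on the separable quotient problem in one statement. -/
theorem result :
    GeneratedCase.{u} ∧ BarrelledLowerBound.{u} ∧ BarrelledAttained ∧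
      (InfiniteFreeSets → FullAnswer.{u}) ∧ (LebesgueExtends → InfiniteFreeSets) :=
  ⟨generatedCase, barrelledLowerBound, barrelledAttained, fullAnswer_of_free,
    infiniteFreeSets_of_extends⟩

end Vale.Agent.Results.P129.Combined
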