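import Vale.Agent.P129.MathlibUsed
import Vale.Agent.P129.Bdl.B1

open Set

namespace Vale.Agent.Results.P129.WeaklyCompactGenerated

universe u

/-- The uniformity number of the meagre ideal: the least cardinality of a nonmeagre
set of real numbers. -/
noncomputable def nonMeagre : Cardinal.{0} :=
  sInf {κ : Cardinal.{0} | ∃ S : Set ℝ, ¬ IsMeagre S ∧ Cardinal.mk S = κ}

theorem isMeagre_of_countable {S : Set ℝ} (hS : S.Countable) : IsMeagre S := by
  have h : S = ⋃ x ∈ S, {x} := by simp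
  rw [h]
  refine isMeagre_biUnion hS fun x _ => ?_
  have hx : IsNowhereDense ({x} : Set ℝ) := by
    show interior (closure {x}) = ∅
    rw [closure_singleton, interior_singleton]
  exact hx.isMeagre

theorem aleph0_lt_nonMeagre : Cardinal.aleph0 < nonMeagre := by
  obtain ⟨S, hS, hSc⟩ : nonMeagre ∈ {κ : Cardinal.{0} | ∃ S : Set ℝ, ¬ IsMeagre S ∧ Cardinal.mk S = κ} := by
    refine csInf_mem ⟨_, Set.univ, ?_, rfl⟩
    exact not_isMeagre_of_isOpen isOpen_univ univ_nonempty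
  rw [← hSc]
  by_contra hle
  exact hS (isMeagre_of_countable (Cardinal.le_aleph0_iff_set_countable.1 (not_lt.1 hle)))

theorem result {𝕜 : Type*} [RCLike 𝕜] {X : Type u} [NormedAddCommGroup X] [NormedSpace 𝕜 X]
    [CompleteSpace X] (hinf : ¬ FiniteDimensional 𝕜 X) (𝒦 : Set (Set X))
    (hcompact : ∀ K ∈ 𝒦, IsCompact (toWeakSpace 𝕜 X '' K))
    (hspan : Dense (Submodule.span 𝕜 (⋃₀ 𝒦) : Set X))
    (hcard : Cardinal.mk 𝒦 < Cardinal.lift.{u} nonMeagre) :
    ∃ M : Submodule 𝕜 X, IsClosed (M : Set X) ∧ TopologicalSpace.SeparableSpace (X ⧸ M) ∧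
      ¬ FiniteDimensional 𝕜 (X ⧸ M) := by
  have h0 : Cardinal.aleph0 < Cardinal.lift.{u} nonMeagre :=
    Cardinal.aleph0_lt_lift.2 aleph0_lt_nonMeagre
  have h1 : Cardinal.mk (𝒦 ⊕ ℕ) < Cardinal.lift.{u} nonMeagre := by
    rw [Cardinal.mk_sum]
    refine Cardinal.add_lt_of_lt h0.le ?_ ?_
    · simpa using hcard
    · simpa using h0
  have h2 : ∀ F : 𝒦 ⊕ ℕ → ℝ, IsMeagre (Set.range F) := by
    intro F
    by_contra hF
    have h3 : nonMeagre ≤ Cardinal.mk (Set.range F) := csInf_le' ⟨_, hF, rfl⟩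
    have h4 : Cardinal.lift.{u} (Cardinal.mk (Set.range F)) ≤
        Cardinal.lift.{0} (Cardinal.mk (𝒦 ⊕ ℕ)) := Cardinal.mk_range_le_lift
    rw [Cardinal.lift_id'] at h4
    exact absurd h1 (not_lt.2 ((Cardinal.lift_le.2 h3).trans h4))
  refine Vale.Agent.P129.hasSepQuot_of_weaklyCompact hinf (ι := 𝒦 ⊕ ℕ) h2
    (Sum.elim (fun K => (K : Set X)) (fun _ => ∅)) ?_ ?_
  · rintro (K | n)
    · exact hcompact K K.2
    · simp
  · convert hspan using 3
    rw [Set.iUnion_sum]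
    simp [Set.sUnion_eq_iUnion]

end Vale.Agent.Results.P129.WeaklyCompactGenerated
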